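import Vale.Agent.P022.H236.L3.Exm
import Vale.Agent.P022.H231.L3.Hk

/-!
# P022-L3, chapter G: the field `Te` of `Hk` for helper231's operators `TK`, `DC`, `DK`
-/

set_option autoImplicit false

noncomputable section

namespace Vale.Agent.P022.H236.L3

open UpperHalfPlane Function.Periodic Filter Topology
open Vale.Agent.P022.H542.L3 Vale.Agent.P022.H218.L3 Vale.Agent.P022.H231.L3
open scoped Manifold MatrixGroups ModularForm IntermediateField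

/-- `pbz A` is the pull-back by `A` -/
theorem pb_pbz (A : Matrix (Fin 2) (Fin 2) ℤ) (hA : 0 < A.det) :
    Pb (fun τ => gl A hA • τ) (pbz A hA) :=
  pb_of_smul (gl A hA) (pbz A hA : Mer →+* Mer) fun _ hf =>
    ⟨comp_mem' _ (gl_pos A hA) hf, pb_inc _ (gl_pos A hA) hf⟩

theorem coe_gl_smul (A : Matrix (Fin 2) (Fin 2) ℤ) (hA : 0 < A.det) (τ : ℍ) :
    ((gl A hA • τ : ℍ) : ℂ) = ((A 0 0 : ℂ) * τ + A 0 1) / ((A 1 0 : ℂ) * τ + A 1 1) := by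
  rw [UpperHalfPlane.coe_smul_of_det_pos (gl_pos A hA), UpperHalfPlane.num,
    UpperHalfPlane.denom, gl_coe]
  simp

theorem up_pos {P : ℤ} {l : ℕ} (h0 : 0 < l) (j : ℕ) :
    0 < (!![1, P * (j : ℤ); 0, (l : ℤ)] : Matrix (Fin 2) (Fin 2) ℤ).det := by
  rw [Matrix.det_fin_two_of]
  have : (0 : ℤ) < l := by exact_mod_cast h0
  simpa using this

/-- `(τ + P j) / ℓ` -/
def uj (P : ℤ) {l : ℕ} (h0 : 0 < l) (j : ℕ) (τ : ℍ) : ℍ :=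
  gl !![1, P * (j : ℤ); 0, (l : ℤ)] (up_pos h0 j) • τ

theorem uj_coe {N : ℕ} {l : ℕ} (h0 : 0 < l) (j : ℕ) (τ : ℍ) :
    ((uj (N : ℤ) h0 j τ : ℍ) : ℂ) = ((τ : ℂ) + N * j) / l := by
  rw [uj, coe_gl_smul]
  simp

theorem dg_coe {l : ℕ} (h0 : 0 < l) (τ : ℍ) :
    ((gl !![(l : ℤ), 0; 0, 1] (diag_pos h0) • τ : ℍ) : ℂ) = l * (τ : ℂ) := by
  rw [coe_gl_smul]
  simp

variable {N : ℕ} [NeZero N] {Q : ℤ} (hΓ : ModularGroup.T ^ N ∈ Gp (N : ℤ) Q)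

/-- **`Te` for `TK` and `DC`** -/
theorem te_DC {ℓ : ℕ} (h : Gd (N : ℤ) Q ℓ) (hodd : Odd ℓ) (ζ : ℂ) (hζ : IsPrimitiveRoot ζ ℓ)
    (f : (MF (Gp (N : ℤ) Q))ˣ) :
    sb ℓ h.pr.pos (texM hΓ (TK (N : ℤ) Q ℓ f : MF (Gp (N : ℤ) Q))) =
      (∏ j ∈ Finset.range ℓ, rs (ζ ^ j) (pow_ne_zero _ (hζ.ne_zero h.pr.ne_zero))
        (texM hΓ (f : MF (Gp (N : ℤ) Q)))) *
      sb (ℓ * ℓ) (Nat.mul_pos h.pr.pos h.pr.pos)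
        (texM hΓ (DC (N : ℤ) Q ℓ (f : MF (Gp (N : ℤ) Q)))) := by
  refine ExM.te hodd (NeZero.ne N) (texM_spec hΓ (f : MF (Gp (N : ℤ) Q)))
    (u := uj (N : ℤ) h.pr.pos)
    (φ := fun j => pbz !![1, (N : ℤ) * (j : ℤ); 0, (ℓ : ℤ)] (up_pos h.pr.pos j))
    (fun j => pb_pbz _ _) (fun j τ => uj_coe h.pr.pos j τ)
    (ψ := pbz !![(ℓ : ℤ), 0; 0, 1] (diag_pos h.pr.pos))
    (v := fun τ => gl !![(ℓ : ℤ), 0; 0, 1] (diag_pos h.pr.pos) • τ)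
    (pb_pbz _ _) (fun τ => dg_coe h.pr.pos τ)
    (texM_spec hΓ (DC (N : ℤ) Q ℓ (f : MF (Gp (N : ℤ) Q)))) ?_
    (texM_spec hΓ (TK (N : ℤ) Q ℓ f : MF (Gp (N : ℤ) Q))) h.pr.pos ζ hζ
  rw [TK_coe h, Fintype.prod_option, pbz_none h.pr.pos, mul_comm, DC_coe]
  congr 1
  rw [Finset.prod_range]
  rfl

/-- **`Te` for `TK` and `DK`: the literal of `Hk`** -/
theorem te_DK {ℓ : ℕ} (h : Gd (N : ℤ) Q ℓ) (hodd : Odd ℓ) {Γ0 : Subgroup SL(2, ℤ)}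
    (h0 : ∀ γ : SL(2, ℤ), Q ∣ γ 1 0 → γ ∈ Γ0) {p : MF (Gp (N : ℤ) Q)} (hp : (p : Mer) ∈ MF Γ0)
    (ζ : ℂ) (hζ : IsPrimitiveRoot ζ ℓ) (f : (MF (Gp (N : ℤ) Q))ˣ) :
    sb ℓ h.pr.pos (texM hΓ (TK (N : ℤ) Q ℓ f : MF (Gp (N : ℤ) Q))) =
      (∏ j ∈ Finset.range ℓ, rs (ζ ^ j) (pow_ne_zero _ (hζ.ne_zero h.pr.ne_zero))
        (texM hΓ (f : MF (Gp (N : ℤ) Q)))) *
      sb (ℓ * ℓ) (Nat.mul_pos h.pr.pos h.pr.pos)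
        (texM hΓ (DK h0 hp ℓ (f : MF (Gp (N : ℤ) Q)))) :=
  te_DC hΓ h hodd ζ hζ f

/-- the translation `T ^ N` belongs to `G` -/
theorem T_pow_mem (N : ℕ) (Q : ℤ) : ModularGroup.T ^ N ∈ Gp (N : ℤ) Q := by
  have h3 := ModularGroup.coe_T_zpow (N : ℤ)
  rw [zpow_natCast] at h3
  show Q ∣ ((ModularGroup.T ^ N : SL(2, ℤ)) : Matrix (Fin 2) (Fin 2) ℤ) 1 0 ∧
    (N : ℤ) ∣ ((ModularGroup.T ^ N : SL(2, ℤ)) : Matrix (Fin 2) (Fin 2) ℤ) 0 1 ∧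
    (Q ∣ ((ModularGroup.T ^ N : SL(2, ℤ)) : Matrix (Fin 2) (Fin 2) ℤ) 1 1 - 1 ∨
      Q ∣ ((ModularGroup.T ^ N : SL(2, ℤ)) : Matrix (Fin 2) (Fin 2) ℤ) 1 1 + 1)
  rw [h3]
  simp

end Vale.Agent.P022.H236.L3
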