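import Vale.Agent.P022.H236.Esa
import Vale.Agent.P022.H542.L3.Ser

/-!
# P022-L3, chapter G, row [EXP]: expansions at the cusp as Laurent series

`ExL N x f`: near `i∞` the function `f` is the sum of the Laurent series `x` in `t = e(τ / N)`.
-/

set_option autoImplicit false

noncomputable section

namespace Vale.Agent.P022.H236.L3

open PowerSeries UpperHalfPlane Function.Periodic Filter Topology
open Vale.Agent.P022.H542.L3
open scoped Manifold

/-! ### Laurent series as `t ^ m F(t)` -/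

/-- `t ^ m F(t)` -/
def ls (m : ℤ) (F : PowerSeries ℂ) : LS :=
  HahnSeries.single m 1 * HahnSeries.ofPowerSeries ℤ ℂ F

theorem coeff_ls (m : ℤ) (F : PowerSeries ℂ) (n : ℕ) : (ls m F).coeff (m + n) = coeff n F := by
  rw [ls, add_comm, HahnSeries.coeff_single_mul_add, one_mul, LaurentSeries.coeff_coe_powerSeries]

theorem coeff_ls_of_lt (m : ℤ) (F : PowerSeries ℂ) {k : ℤ} (h : k < m) : (ls m F).coeff k = 0 := by
  rw [ls, HahnSeries.coeff_single_mul, one_mul, PowerSeries.coeff_coe, if_pos (by omega)]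

theorem ls_ext {m : ℤ} {F : PowerSeries ℂ} {x : LS} (h1 : ∀ n : ℕ, x.coeff (m + n) = coeff n F)
    (h2 : ∀ k < m, x.coeff k = 0) : x = ls m F := by
  ext k
  rcases lt_or_ge k m with h | h
  · rw [h2 k h, coeff_ls_of_lt m F h]
  · obtain ⟨n, rfl⟩ : ∃ n : ℕ, k = m + n := ⟨(k - m).toNat, by omega⟩
    rw [h1, coeff_ls]

theorem ls_inj {m : ℤ} {F G : PowerSeries ℂ} (h : ls m F = ls m G) : F = G := by
  ext n
  rw [← coeff_ls m F, h, coeff_ls]

theorem ls_mul (m n : ℤ) (F G : PowerSeries ℂ) : ls m F * ls n G = ls (m + n) (F * G) := by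
  rw [ls, ls, ls, map_mul, mul_mul_mul_comm, HahnSeries.single_mul_single, mul_one]

theorem ls_add (m : ℤ) (F G : PowerSeries ℂ) : ls m F + ls m G = ls m (F + G) := by
  rw [ls, ls, ls, map_add, mul_add]

theorem ls_zero (m : ℤ) : ls m 0 = 0 := by
  rw [ls, map_zero, mul_zero]

theorem ls_zero_one : ls 0 1 = 1 := by
  rw [ls, (HahnSeries.ofPowerSeries ℤ ℂ).map_one, mul_one]; rfl

theorem ls_eq_zero {m : ℤ} {F : PowerSeries ℂ} : ls m F = 0 ↔ F = 0 :=
  ⟨fun h => ls_inj (m := m) (by rw [h, ls_zero]), fun h => by rw [h, ls_zero]⟩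

theorem ls_X_pow (m : ℤ) (k : ℕ) (F : PowerSeries ℂ) : ls m (X ^ k * F) = ls (m + k) F := by
  rw [ls, ls, map_mul, map_pow, HahnSeries.ofPowerSeries_X, HahnSeries.single_pow, one_pow,
    ← mul_assoc, HahnSeries.single_mul_single, mul_one]
  simp

theorem ls_rep (x : LS) : x = ls x.order x.powerSeriesPart :=
  (LaurentSeries.single_order_mul_powerSeriesPart x).symm

theorem rep_const {x : LS} (hx : x ≠ 0) : constantCoeff x.powerSeriesPart ≠ 0 := by
  rw [← coeff_zero_eq_constantCoeff_apply, LaurentSeries.powerSeriesPart_coeff]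
  simpa using HahnSeries.coeff_order_eq_zero.not.2 hx

theorem ls_C (c : ℂ) : ls 0 (C c) = HahnSeries.C c := by
  rw [ls, HahnSeries.ofPowerSeries_C]
  exact one_mul _

theorem sb_ls {l : ℕ} (hl : l ≠ 0) (h : 0 < l) (m : ℤ) (F : PowerSeries ℂ) :
    sb l h (ls m F) = ls (l * m) (expand l hl F) := by
  have hl' : (0 : ℤ) < l := by exact_mod_cast h
  apply ls_ext
  · intro n
    rw [coeff_expand]
    split_ifs with hd
    · obtain ⟨k, rfl⟩ := hd
      rw [Nat.mul_div_cancel_left _ h,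
        show (l : ℤ) * m + ((l * k : ℕ) : ℤ) = l * (m + k) by push_cast; ring,
        coeff_sb_mul, coeff_ls]
    · apply coeff_sb_of_not_dvd
      rintro ⟨c, hc⟩
      apply hd
      have : (l : ℤ) ∣ (n : ℤ) := ⟨c - m, by rw [mul_sub, ← hc]; ring⟩
      exact_mod_cast this
  · intro k hk
    by_cases hd : (l : ℤ) ∣ k
    · obtain ⟨c, rfl⟩ := hd
      rw [coeff_sb_mul, coeff_ls_of_lt]
      exact lt_of_mul_lt_mul_left hk hl'.le
    · exact coeff_sb_of_not_dvd _ _ _ _ hd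

theorem rsF_ls {ζ : ℂ} (hζ : ζ ≠ 0) (m : ℤ) (F : PowerSeries ℂ) :
    rsF ζ (ls m F) = HahnSeries.C (ζ ^ m) * ls m (rescale ζ F) := by
  ext k
  rw [coeff_rsF, HahnSeries.C_mul_eq_smul, HahnSeries.coeff_smul, smul_eq_mul]
  rcases lt_or_ge k m with h | h
  · rw [coeff_ls_of_lt m _ h, coeff_ls_of_lt m _ h, mul_zero, mul_zero]
  · obtain ⟨n, rfl⟩ : ∃ n : ℕ, k = m + n := ⟨(k - m).toNat, by omega⟩
    rw [coeff_ls, coeff_ls, coeff_rescale, zpow_add₀ hζ, zpow_natCast]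
    ring

theorem rs_apply (ζ : ℂ) (hζ : ζ ≠ 0) (x : LS) : rs ζ hζ x = rsF ζ x := rfl

theorem cm_ls (σ : ℂ ≃+* ℂ) (m : ℤ) (F : PowerSeries ℂ) :
    cm σ (ls m F) = ls m (map (σ : ℂ →+* ℂ) F) := by
  apply ls_ext
  · intro n
    rw [coeff_cm, coeff_ls, coeff_map]
    rfl
  · intro k hk
    rw [coeff_cm, coeff_ls_of_lt m F hk, map_zero]

/-- the norm: `sb l (ls m (nmP F)) = ∏ rs (ζ ^ j) (ls m F)` -/
theorem sb_nmP {l : ℕ} (hl : Odd l) (h : 0 < l) {ζ : ℂ} (hζ : IsPrimitiveRoot ζ l) (m : ℤ)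
    (F : PowerSeries ℂ) :
    sb l h (ls m (nmP l ζ F)) = ∏ j ∈ Finset.range l, rsF (ζ ^ j) (ls m F) := by
  have hl0 : l ≠ 0 := h.ne'
  have hz : ζ ≠ 0 := hζ.ne_zero hl0
  rw [sb_ls hl0 h, expand_nmP hl0 hζ.pow_eq_one (fun n hn => (hζ.pow_eq_one_iff_dvd n).1 hn), nm]
  have e1 : ∀ j, rsF (ζ ^ j) (ls m F) =
      HahnSeries.C ((ζ ^ j) ^ m) * ls m (rescale (ζ ^ j) F) := fun j =>
    rsF_ls (pow_ne_zero _ hz) m F
  rw [Finset.prod_congr rfl fun j _ => e1 j, Finset.prod_mul_distrib, ← map_prod]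
  have e2 : ∏ j ∈ Finset.range l, (ζ ^ j) ^ m = 1 := by
    rw [Finset.prod_zpow, prod_zeta hl hζ.pow_eq_one, one_zpow]
  rw [e2, map_one, one_mul]
  have e3 : ∀ s : Finset ℕ, ∏ j ∈ s, ls m (rescale (ζ ^ j) F) =
      ls (s.card * m) (∏ j ∈ s, rescale (ζ ^ j) F) := by
    intro s
    classical
    induction s using Finset.induction_on with
    | empty => simp [ls_zero_one]
    | insert a s ha ih =>
      rw [Finset.prod_insert ha, Finset.prod_insert ha, ih, ls_mul, Finset.card_insert_of_notMem ha]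
      congr 1
      push_cast
      ring
  rw [e3, Finset.card_range]

/-- independence of the primitive root -/
theorem prod_prim {R M : Type*} [CommRing R] [IsDomain R] [CommMonoid M] {l : ℕ} {ζ ζ' : R}
    (hζ : IsPrimitiveRoot ζ l) (hζ' : IsPrimitiveRoot ζ' l) (g : R → M) :
    ∏ j ∈ Finset.range l, g (ζ ^ j) = ∏ j ∈ Finset.range l, g (ζ' ^ j) := by
  have e : ∀ {z : R}, IsPrimitiveRoot z l →
      ∏ j ∈ Finset.range l, g (z ^ j) = ((Polynomial.nthRoots l (1 : R)).map g).prod := by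
    intro z hz
    rw [hz.nthRoots_eq (one_pow l), Multiset.map_map]
    simp [Finset.prod]
  rw [e hζ, e hζ']

/-! ### expansions -/

theorem ev_X_pow_mul {k : ℕ} {G : PowerSeries ℂ} {z v : ℂ} (hz : z ≠ 0) :
    Ev (X ^ k * G) z (z ^ k * v) ↔ Ev G z v := by
  have hinj : Function.Injective fun n : ℕ => n + k := fun m n h => Nat.add_right_cancel h
  have hoff : ∀ n : ℕ, n ∉ Set.range (fun n : ℕ => n + k) →
      coeff n (X ^ k * G) * z ^ n = 0 := by
    intro n hn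
    rw [coeff_X_pow_mul', if_neg, zero_mul]
    intro h
    exact hn ⟨n - k, Nat.sub_add_cancel h⟩
  have h := hinj.hasSum_iff (f := fun n => coeff n (X ^ k * G) * z ^ n) (a := z ^ k * v) hoff
  have e : ((fun n => coeff n (X ^ k * G) * z ^ n) ∘ fun n : ℕ => n + k) =
      fun n => z ^ k * (coeff n G * z ^ n) := by
    funext n
    simp only [Function.comp_apply, coeff_X_pow_mul, pow_add]
    ring
  rw [e] at h
  rw [Ev, ← h, hasSum_mul_left_iff (pow_ne_zero k hz)]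
  rfl

theorem exq_X_pow_mul {N k : ℕ} {m : ℤ} {G : PowerSeries ℂ} {f : ℍ → ℂ} :
    Exq N m (X ^ k * G) f ↔ Exq N (m + k) G f := by
  refine eventually_congr (Eventually.of_forall fun τ => ?_)
  have e : f τ * qParam N τ ^ (-m) =
      qParam N τ ^ k * (f τ * qParam N τ ^ (-(m + k))) := by
    rw [neg_add, zpow_add₀ (qne N τ), zpow_neg _ (k : ℤ), zpow_natCast]
    have := pow_ne_zero k (qne N τ)
    field_simp
  rw [e, ev_X_pow_mul (qne N τ)]

/-- **near `i∞` the function `f` is the sum of the Laurent series `x` in `t = e(τ / N)`** -/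
def ExL (N : ℕ) (x : LS) (f : ℍ → ℂ) : Prop := ∃ (m : ℤ) (F : PowerSeries ℂ), x = ls m F ∧ Exq N m F f

section exl
variable {N : ℕ} {x y : LS} {f g : ℍ → ℂ}

theorem _root_.Vale.Agent.P022.H236.Exq.exL {m : ℤ} {F : PowerSeries ℂ} (h : Exq N m F f) :
    ExL N (ls m F) f := ⟨m, F, rfl, h⟩

/-- every lower exponent will do -/
theorem ExL.low (h : ExL N x f) : ∃ m0 : ℤ, ∀ m ≤ m0, ∃ F, x = ls m F ∧ Exq N m F f := by
  obtain ⟨m0, F, rfl, hF⟩ := h
  refine ⟨m0, fun m hm => ?_⟩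
  obtain ⟨k, rfl⟩ : ∃ k : ℕ, m0 = m + k := ⟨(m0 - m).toNat, by omega⟩
  exact ⟨X ^ k * F, (ls_X_pow m k F).symm, exq_X_pow_mul.2 hF⟩

/-- any representation of the Laurent series will do -/
theorem ExL.exq {m : ℤ} {F : PowerSeries ℂ} (h : ExL N (ls m F) f) : Exq N m F f := by
  obtain ⟨m0, h0⟩ := h.low
  obtain ⟨m1, k, h1, rfl⟩ : ∃ (m1 : ℤ) (k : ℕ), m1 ≤ m0 ∧ m = m1 + k :=
    ⟨min m m0, (m - min m m0).toNat, min_le_right _ _, by omega⟩
  obtain ⟨G, e, hG⟩ := h0 m1 h1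
  rw [← ls_X_pow] at e
  rw [← exq_X_pow_mul, ls_inj e]
  exact hG

theorem exL_ls_iff {m : ℤ} {F : PowerSeries ℂ} : ExL N (ls m F) f ↔ Exq N m F f :=
  ⟨ExL.exq, Exq.exL⟩

theorem ExL.rep (h : ExL N x f) : Exq N x.order x.powerSeriesPart f := by
  rw [ls_rep x] at h
  exact h.exq

theorem ExL.pair (hf : ExL N x f) (hg : ExL N y g) : ∃ m F G, x = ls m F ∧ y = ls m G ∧
    Exq N m F f ∧ Exq N m G g := by
  obtain ⟨m0, h0⟩ := hf.low
  obtain ⟨m1, h1⟩ := hg.low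
  obtain ⟨F, e, hF⟩ := h0 (min m0 m1) (min_le_left _ _)
  obtain ⟨G, e', hG⟩ := h1 (min m0 m1) (min_le_right _ _)
  exact ⟨_, F, G, e, e', hF, hG⟩

theorem ExL.unique (hN : N ≠ 0) (hf : ExL N x f) (hg : ExL N y f) : x = y := by
  obtain ⟨m, F, G, rfl, rfl, hF, hG⟩ := hf.pair hg
  rw [hF.unique hN hG]

theorem ExL.congr (hf : ExL N x f) (h : f =ᶠ[atImInfty] g) : ExL N x g := by
  obtain ⟨m, F, e, hF⟩ := hf
  exact ⟨m, F, e, hF.congr h⟩

theorem ExL.mul (hf : ExL N x f) (hg : ExL N y g) : ExL N (x * y) (f * g) := by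
  obtain ⟨m, F, rfl, hF⟩ := hf
  obtain ⟨n, G, rfl, hG⟩ := hg
  rw [ls_mul]
  exact (hF.mul hG).exL

theorem ExL.add (hf : ExL N x f) (hg : ExL N y g) : ExL N (x + y) (f + g) := by
  obtain ⟨m, F, G, rfl, rfl, hF, hG⟩ := hf.pair hg
  rw [ls_add]
  refine Exq.exL ?_
  filter_upwards [hF, hG] with τ h1 h2
  have := h1.add h2
  rwa [← add_mul] at this

theorem ExL.const (N : ℕ) (c : ℂ) : ExL N (HahnSeries.C c) (fun _ => c) := by
  rw [← ls_C]
  refine Exq.exL (Eventually.of_forall fun τ => ?_)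
  have h := (Ev.one (z := qParam N τ)).smul c
  rw [mul_one] at h
  have e : (C c : PowerSeries ℂ) = c • (1 : PowerSeries ℂ) := by
    rw [smul_eq_C_mul, mul_one]
  rw [e]
  simpa using h

theorem ExL.one (N : ℕ) : ExL N 1 1 := by
  have := ExL.const N 1
  rwa [map_one] at this

theorem ExL.zero (N : ℕ) : ExL N 0 0 := by
  have := ExL.const N 0
  rwa [map_zero] at this

theorem ExL.smul (hf : ExL N x f) (c : ℂ) : ExL N (HahnSeries.C c * x) (c • f) := by
  have := (ExL.const N c).mul hf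
  exact this

theorem ExL.neg (hf : ExL N x f) : ExL N (-x) (-f) := by
  have := hf.smul (-1)
  rwa [map_neg, map_one, neg_one_mul, neg_one_smul] at this

theorem ExL.sub (hf : ExL N x f) (hg : ExL N y g) : ExL N (x - y) (f - g) := by
  rw [sub_eq_add_neg, sub_eq_add_neg]
  exact hf.add hg.neg

theorem ExL.pow (hf : ExL N x f) (n : ℕ) : ExL N (x ^ n) (f ^ n) := by
  induction n with
  | zero => rw [pow_zero, pow_zero]; exact ExL.one N
  | succ n ih => rw [pow_succ, pow_succ]; exact ih.mul hf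

theorem ExL.sum {ι : Type*} (s : Finset ι) {x : ι → LS} {f : ι → ℍ → ℂ}
    (h : ∀ i ∈ s, ExL N (x i) (f i)) : ExL N (∑ i ∈ s, x i) (∑ i ∈ s, f i) := by
  classical
  induction s using Finset.induction_on with
  | empty => simpa using ExL.zero N
  | insert a s ha ih =>
    rw [Finset.sum_insert ha, Finset.sum_insert ha]
    exact (h a (Finset.mem_insert_self _ _)).add (ih fun i hi => h i (Finset.mem_insert_of_mem hi))

theorem ExL.prod {ι : Type*} (s : Finset ι) {x : ι → LS} {f : ι → ℍ → ℂ}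
    (h : ∀ i ∈ s, ExL N (x i) (f i)) : ExL N (∏ i ∈ s, x i) (∏ i ∈ s, f i) := by
  classical
  induction s using Finset.induction_on with
  | empty => simpa using ExL.one N
  | insert a s ha ih =>
    rw [Finset.prod_insert ha, Finset.prod_insert ha]
    exact (h a (Finset.mem_insert_self _ _)).mul (ih fun i hi => h i (Finset.mem_insert_of_mem hi))

/-- the inverse -/
theorem ExL.inv (hN : N ≠ 0) (hf : ExL N x f) (hx : x ≠ 0) :
    (∀ᶠ τ in atImInfty, f τ ≠ 0) ∧ ExL N x⁻¹ f⁻¹ := by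
  have h0 := rep_const hx
  obtain ⟨h1, h2⟩ := hf.rep.inv hN h0
  refine ⟨h1, ?_⟩
  have e : x⁻¹ = ls (-x.order) (x.powerSeriesPart)⁻¹ := by
    apply inv_eq_of_mul_eq_one_right
    have h3 : ls x.order x.powerSeriesPart * ls (-x.order) (x.powerSeriesPart)⁻¹ = 1 := by
      rw [ls_mul, add_neg_cancel, PowerSeries.mul_inv_cancel _ h0, ls_zero_one]
    rwa [← ls_rep x] at h3
  rw [e]
  exact h2.exL

theorem ExL.div (hN : N ≠ 0) (hf : ExL N x f) (hg : ExL N y g) (hy : y ≠ 0) :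
    ExL N (x / y) (f / g) := by
  rw [div_eq_mul_inv, div_eq_mul_inv]
  exact hf.mul (hg.inv hN hy).2

theorem ExL.eventually_zero (hf : ExL N 0 f) : ∀ᶠ τ in atImInfty, f τ = 0 := by
  rw [← ls_zero 0, exL_ls_iff] at hf
  filter_upwards [hf] with τ h
  have h0 : Ev (0 : PowerSeries ℂ) (qParam N τ) 0 := by
    have : (fun n => coeff n (0 : PowerSeries ℂ) * qParam N τ ^ n) = fun _ => (0 : ℂ) := by
      funext n; simp
    rw [Ev, this]
    exact hasSum_zero
  have := h.unique h0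
  simpa using this

theorem ExL.zero_iff (hN : N ≠ 0) (hf : ExL N x f) : x = 0 ↔ ∀ᶠ τ in atImInfty, f τ = 0 := by
  constructor
  · rintro rfl
    exact hf.eventually_zero
  · intro h
    exact hf.unique hN ((ExL.zero N).congr (by filter_upwards [h] with τ hτ using hτ.symm))

/-- a holomorphic function with expansion `0` is `0` -/
theorem ExL.hol_zero {f : ℍ → ℂ} (hm : MDiff f) (hf : ExL N 0 f) : f = 0 := by
  have h := hf.eventually_zero
  obtain ⟨A, hA⟩ := (atImInfty_mem _).1 h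
  obtain ⟨τ, hτ⟩ : ∃ τ : ℍ, max A 1 < τ.im :=
    ⟨⟨((max A 1 + 1 : ℝ) : ℂ) * Complex.I, by simp; positivity⟩, by
      show max A 1 < ((((max A 1 + 1 : ℝ) : ℂ) * Complex.I)).im
      simp⟩
  refine UpperHalfPlane.eq_zero_of_frequently hm (τ := τ) (Eventually.frequently ?_)
  refine Filter.Eventually.filter_mono nhdsWithin_le_nhds ?_
  have h1 : ∀ᶠ z : ℍ in 𝓝 τ, max A 1 < z.im :=
    UpperHalfPlane.continuous_im.continuousAt.eventually (lt_mem_nhds hτ)
  filter_upwards [h1] with z hz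
  exact hA z ((le_max_left A 1).trans hz.le)

theorem ExL.ne_zero {f : ℍ → ℂ} (hm : MDiff f) (hf : ExL N x f) (h0 : f ≠ 0) : x ≠ 0 := by
  rintro rfl
  exact h0 (hf.hol_zero hm)

/-- **f(ℓ τ)** -/
theorem ExL.mulTau {l : ℕ} (hl : 0 < l) (hf : ExL N x f) {u : ℍ → ℍ}
    (hu : ∀ τ : ℍ, ((u τ : ℍ) : ℂ) = l * (τ : ℂ)) : ExL N (sb l hl x) (fun τ => f (u τ)) := by
  obtain ⟨m, F, rfl, hF⟩ := hf
  rw [sb_ls hl.ne' hl]
  exact (hF.mulTau hl.ne' hu).exL

/-- **f(τ + k)** -/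
theorem ExL.tauAdd (hN : N ≠ 0) (hf : ExL N x f) (k : ℤ) {u : ℍ → ℍ}
    (hu : ∀ τ : ℍ, ((u τ : ℍ) : ℂ) = (τ : ℂ) + k) :
    ExL N (rsF (Complex.exp (2 * Real.pi * Complex.I * k / N)) x) (fun τ => f (u τ)) := by
  obtain ⟨m, F, rfl, hF⟩ := hf
  obtain ⟨ζ, hζ⟩ : ∃ ζ, ζ = Complex.exp (2 * Real.pi * Complex.I * k / N) := ⟨_, rfl⟩
  have hz : ζ ≠ 0 := by rw [hζ]; exact Complex.exp_ne_zero _
  have hNC : (N : ℂ) ≠ 0 := by exact_mod_cast hN
  rw [← hζ, rsF_ls hz]
  have him : ∀ τ, (u τ).im = 1 * τ.im := by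
    intro τ
    have := congrArg Complex.im (hu τ)
    simpa using this
  have h1 := (tendsto_scale one_pos him).eventually hF
  have h2 : Exq N m (ζ ^ m • rescale ζ F) (fun τ => f (u τ)) := by
    filter_upwards [h1] with τ h
    have e : qParam N (u τ) = ζ * qParam N τ := by
      rw [hu, hζ, qParam, qParam, ← Complex.exp_add]
      congr 1
      push_cast
      field_simp
      ring
    rw [e] at h
    have h3 := h.rescale.smul (ζ ^ m)
    have e2 : ζ ^ m * (f (u τ) * (ζ * qParam N τ) ^ (-m)) = f (u τ) * qParam N τ ^ (-m) := by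
      rw [mul_zpow, zpow_neg ζ]
      have := zpow_ne_zero m hz
      field_simp
    rw [e2] at h3
    exact h3
  have e3 : HahnSeries.C (ζ ^ m) * ls m (rescale ζ F) = ls m (ζ ^ m • rescale ζ F) := by
    rw [smul_eq_C_mul, ← ls_C, ls_mul, zero_add]
  rw [e3]
  exact h2.exL

/-- **the norm**: `∏ j < ℓ, f ((τ + N j) / ℓ)` has an expansion `y` with
`sb ℓ y = ∏ j < ℓ, rs (ζ ^ j) x` for every primitive `ℓ`-th root of unity `ζ` -/
theorem ExL.norm {l : ℕ} (hl : Odd l) (hN : N ≠ 0) (hf : ExL N x f) {u : ℕ → ℍ → ℍ}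
    (hu : ∀ j, ∀ τ : ℍ, ((u j τ : ℍ) : ℂ) = ((τ : ℂ) + N * j) / l) :
    ∃ y : LS, ExL N y (fun τ => ∏ j ∈ Finset.range l, f (u j τ)) ∧
      ∀ (h : 0 < l) (ζ : ℂ), IsPrimitiveRoot ζ l →
        sb l h y = ∏ j ∈ Finset.range l, rsF (ζ ^ j) x := by
  obtain ⟨m, F, rfl, hF⟩ := hf
  have hl0 : l ≠ 0 := by rintro rfl; exact absurd hl (by decide)
  refine ⟨_, (hF.norm hl hN hu).exL, fun h ζ hζ => ?_⟩
  rw [sb_nmP hl h (Complex.isPrimitiveRoot_exp l hl0)]
  exact prod_prim (Complex.isPrimitiveRoot_exp l hl0) hζ fun z => rsF z (ls m F)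

/-- Mathlib's `q`-expansion -/
theorem exL_qExpansion (hN : N ≠ 0) (hfper : Function.Periodic (f ∘ ofComplex) (N : ℝ))
    (hfhol : MDiff f) (hfbdd : IsBoundedAtImInfty f) :
    ExL N (HahnSeries.ofPowerSeries ℤ ℂ (qExpansion (N : ℝ) f)) f := by
  have h := (exq_qExpansion hN hfper hfhol hfbdd).exL
  have e : ls 0 (qExpansion (N : ℝ) f) = HahnSeries.ofPowerSeries ℤ ℂ (qExpansion (N : ℝ) f) := by
    rw [ls]; exact one_mul _
  rwa [e] at h

/-- a convergent series in `t = e(τ / N)` is the expansion -/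
theorem exL_of_hasSum {a : ℕ → ℂ}
    (h : ∀ τ : ℍ, HasSum (fun n => a n * qParam N τ ^ n) (f τ)) :
    ExL N (HahnSeries.ofPowerSeries ℤ ℂ (PowerSeries.mk a)) f := by
  have e : ls 0 (PowerSeries.mk a) = HahnSeries.ofPowerSeries ℤ ℂ (PowerSeries.mk a) := by
    rw [ls]; exact one_mul _
  rw [← e]
  refine Exq.exL (Eventually.of_forall fun τ => ?_)
  rw [neg_zero, zpow_zero, mul_one, Ev]
  simpa using h τ

end exl

end Vale.Agent.P022.H236.L3
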