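import Vale.Agent.P022.H236.L3.Exl
import Vale.Agent.P022.H218.L3.Amb

/-!
# P022-L3, chapter G, row [EXP], file 2: the expansion in `t = e(τ / N)` as an algebra map

`EF N` = the quotients of holomorphic functions with an expansion at `i∞`,
`tex N : EF N →ₐ[ℂ] LS`, `MF Γ ≤ EF N` if `[1, N; 0, 1] ∈ Γ`, and the formula `Te` of `Hk`.
-/

set_option autoImplicit false

noncomputable section

namespace Vale.Agent.P022.H236.L3

open UpperHalfPlane Function.Periodic Filter Topology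
open Vale.Agent.P022.H542.L3 Vale.Agent.P022.H218.L3
open scoped Manifold MatrixGroups ModularForm

/-- `X` is the expansion of `x : Mer` -/
def ExM (N : ℕ) (X : LS) (x : Mer) : Prop :=
  ∃ (g h : ℍ → ℂ) (hg : g ∈ Hol) (hh : h ∈ Hol) (G H : LS), h ≠ 0 ∧ ExL N G g ∧ ExL N H h ∧
    x = inc g hg / inc h hh ∧ X = G / H

section
variable {N : ℕ} {X Y : LS} {x y : Mer}

theorem inc_ne_zero {f : ℍ → ℂ} (hf : f ∈ Hol) (h : f ≠ 0) : inc f hf ≠ 0 :=
  fun h' => h ((inc_eq_zero hf).1 h')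

theorem ExL.exM {g h : ℍ → ℂ} (hg : g ∈ Hol) (hh : h ∈ Hol) (h0 : h ≠ 0) {G H : LS}
    (hG : ExL N G g) (hH : ExL N H h) : ExM N (G / H) (inc g hg / inc h hh) :=
  ⟨g, h, hg, hh, G, H, h0, hG, hH, rfl, rfl⟩

theorem one_mem : (fun _ => (1 : ℂ)) ∈ Hol := mdifferentiable_const

theorem one_ne : (fun _ : ℍ => (1 : ℂ)) ≠ 0 := fun h => by
  have := congrFun h UpperHalfPlane.I
  simp at this

theorem inc_one : inc (fun _ => (1 : ℂ)) one_mem = 1 := by
  have := inc_const 1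
  rw [map_one] at this
  exact this

theorem ExL.exM_inc {g : ℍ → ℂ} (hg : g ∈ Hol) {G : LS} (hG : ExL N G g) :
    ExM N G (inc g hg) := by
  have h := hG.exM hg one_mem one_ne (ExL.const N 1)
  rwa [inc_one, map_one, div_one, div_one] at h

theorem ExM.const (N : ℕ) (c : ℂ) : ExM N (HahnSeries.C c) (algebraMap ℂ Mer c) := by
  rw [← inc_const c]
  exact (ExL.const N c).exM_inc _

theorem ExM.unique (hN : N ≠ 0) (hX : ExM N X x) (hY : ExM N Y x) : X = Y := by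
  obtain ⟨g, h, hg, hh, G, H, h0, hG, hH, rfl, rfl⟩ := hX
  obtain ⟨g', h', hg', hh', G', H', h0', hG', hH', e, rfl⟩ := hY
  rw [div_eq_div_iff (inc_ne_zero hh h0) (inc_ne_zero hh' h0'), ← inc_mul, ← inc_mul] at e
  have e1 := inc_injective _ _ e
  have h1 := hG.mul hH'
  rw [e1] at h1
  have h2 := h1.unique hN (hG'.mul hH)
  rwa [div_eq_div_iff (hH.ne_zero hh h0) (hH'.ne_zero hh' h0')]

theorem ExM.mul (hX : ExM N X x) (hY : ExM N Y y) : ExM N (X * Y) (x * y) := by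
  obtain ⟨g, h, hg, hh, G, H, h0, hG, hH, rfl, rfl⟩ := hX
  obtain ⟨g', h', hg', hh', G', H', h0', hG', hH', rfl, rfl⟩ := hY
  refine ⟨g * g', h * h', Hol.mul_mem hg hg', Hol.mul_mem hh hh', G * G', H * H', ?_,
    hG.mul hG', hH.mul hH', ?_, div_mul_div_comm _ _ _ _⟩
  · intro h1
    rcases (UpperHalfPlane.mul_eq_zero_iff hh hh').1 h1 with h | h
    · exact h0 h
    · exact h0' h
  · rw [inc_mul hg hg', inc_mul hh hh', div_mul_div_comm]

theorem ExM.add (hX : ExM N X x) (hY : ExM N Y y) : ExM N (X + Y) (x + y) := by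
  obtain ⟨g, h, hg, hh, G, H, h0, hG, hH, rfl, rfl⟩ := hX
  obtain ⟨g', h', hg', hh', G', H', h0', hG', hH', rfl, rfl⟩ := hY
  have n1 := inc_ne_zero hh h0
  have n2 := inc_ne_zero hh' h0'
  have n3 := hH.ne_zero hh h0
  have n4 := hH'.ne_zero hh' h0'
  have m1 : g * h' + h * g' ∈ Hol := Hol.add_mem (Hol.mul_mem hg hh') (Hol.mul_mem hh hg')
  refine ⟨g * h' + h * g', h * h', m1, Hol.mul_mem hh hh', G * H' + H * G', H * H', ?_,
    (hG.mul hH').add (hH.mul hG'), hH.mul hH', ?_, div_add_div _ _ n3 n4⟩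
  · intro h1
    rcases (UpperHalfPlane.mul_eq_zero_iff hh hh').1 h1 with h | h
    · exact h0 h
    · exact h0' h
  · rw [inc_mul hh hh', inc_add (Hol.mul_mem hg hh') (Hol.mul_mem hh hg'), inc_mul hg hh',
      inc_mul hh hg', div_add_div _ _ n1 n2]

theorem ExM.inv (hN : N ≠ 0) (hX : ExM N X x) : ExM N X⁻¹ x⁻¹ := by
  obtain ⟨g, h, hg, hh, G, H, h0, hG, hH, rfl, rfl⟩ := hX
  by_cases hg0 : g = 0
  · subst hg0
    have e : ExM N 0 (algebraMap ℂ Mer 0) := by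
      have := ExM.const N 0
      rwa [map_zero (HahnSeries.C : ℂ →+* LS)] at this
    rw [map_zero] at e
    have e1 : inc 0 hg = 0 := (inc_eq_zero hg).2 rfl
    rw [e1, zero_div, inv_zero, hG.unique hN (ExL.zero N), zero_div, inv_zero]
    exact e
  · exact ⟨h, g, hh, hg, H, G, hg0, hH, hG, inv_div _ _, inv_div _ _⟩

theorem ExM.div (hN : N ≠ 0) (hX : ExM N X x) (hY : ExM N Y y) : ExM N (X / Y) (x / y) := by
  rw [div_eq_mul_inv, div_eq_mul_inv]
  exact hX.mul (hY.inv hN)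

theorem ExM.prod {ι : Type*} (s : Finset ι) {X : ι → LS} {x : ι → Mer}
    (h : ∀ i ∈ s, ExM N (X i) (x i)) : ExM N (∏ i ∈ s, X i) (∏ i ∈ s, x i) := by
  classical
  induction s using Finset.induction_on with
  | empty =>
    have := ExM.const N 1
    rw [map_one, map_one] at this
    simpa using this
  | insert a s ha ih =>
    rw [Finset.prod_insert ha, Finset.prod_insert ha]
    exact (h a (Finset.mem_insert_self _ _)).mul (ih fun i hi => h i (Finset.mem_insert_of_mem hi))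

end

/-! ### the field of functions with an expansion -/

theorem algMap_ls (c : ℂ) : algebraMap ℂ LS c = HahnSeries.C c := by
  simp [HahnSeries.algebraMap_apply']

/-- the functions with an expansion in `t = e(τ / N)` -/
def EF (N : ℕ) [NeZero N] : IntermediateField ℂ Mer where
  carrier := {x | ∃ X, ExM N X x}
  mul_mem' := by rintro _ _ ⟨X, hX⟩ ⟨Y, hY⟩; exact ⟨_, hX.mul hY⟩
  add_mem' := by rintro _ _ ⟨X, hX⟩ ⟨Y, hY⟩; exact ⟨_, hX.add hY⟩
  algebraMap_mem' c := ⟨_, ExM.const N c⟩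
  inv_mem' := by rintro _ ⟨X, hX⟩; exact ⟨_, hX.inv (NeZero.ne N)⟩

theorem mem_EF {N : ℕ} [NeZero N] {x : Mer} : x ∈ EF N ↔ ∃ X, ExM N X x := Iff.rfl

/-- **the expansion in `t = e(τ / N)`** -/
def tex (N : ℕ) [NeZero N] : EF N →ₐ[ℂ] LS where
  toFun x := x.2.choose
  map_one' := by
    refine ((1 : EF N).2.choose_spec).unique (NeZero.ne N) ?_
    have := ExM.const N 1
    rwa [map_one, map_one] at this
  map_mul' x y := ((x * y).2.choose_spec).unique (NeZero.ne N)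
    (x.2.choose_spec.mul y.2.choose_spec)
  map_zero' := by
    refine ((0 : EF N).2.choose_spec).unique (NeZero.ne N) ?_
    have := ExM.const N 0
    rwa [map_zero, map_zero] at this
  map_add' x y := ((x + y).2.choose_spec).unique (NeZero.ne N)
    (x.2.choose_spec.add y.2.choose_spec)
  commutes' c := by
    refine ((algebraMap ℂ (EF N) c).2.choose_spec).unique (NeZero.ne N) ?_
    rw [algMap_ls]
    exact ExM.const N c

theorem tex_spec {N : ℕ} [NeZero N] (x : EF N) : ExM N (tex N x) (x : Mer) := x.2.choose_spec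

theorem tex_eq {N : ℕ} [NeZero N] {x : EF N} {X : LS} (h : ExM N X (x : Mer)) : tex N x = X :=
  (tex_spec x).unique (NeZero.ne N) h

/-! ### modular forms -/

/-- a form for a group which contains `[1, N; 0, 1]` has an expansion without principal part -/
theorem isMF_exL {N : ℕ} (hN : N ≠ 0) {Γ : Subgroup SL(2, ℤ)} {k : ℤ} {g : ℍ → ℂ}
    (hΓ : ModularGroup.T ^ N ∈ Γ) (hg : IsMF Γ k g) :
    ExL N (HahnSeries.ofPowerSeries ℤ ℂ (qExpansion (N : ℝ) g)) g := by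
  refine exL_qExpansion hN ?_ hg.hol ?_
  · have h1 : ∀ τ : ℍ, g ((N : ℝ) +ᵥ τ) = g τ := by
      intro τ
      have h := congrFun (hg.slash _ hΓ) τ
      rw [ModularForm.SL_slash_apply] at h
      have e1 : (ModularGroup.T ^ N) • τ = (N : ℝ) +ᵥ τ := by
        have := ModularGroup.coe_T_zpow_smul_eq (z := τ) (n := N)
        ext
        rw [zpow_natCast] at this
        rw [this]
        simp [UpperHalfPlane.coe_vadd, add_comm]
      have e2 : UpperHalfPlane.denom ((ModularGroup.T ^ N : SL(2, ℤ)) : GL (Fin 2) ℝ) τ = 1 := by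
        have h3 := ModularGroup.coe_T_zpow (N : ℤ)
        rw [zpow_natCast] at h3
        rw [ModularGroup.denom_apply, h3]
        simp
      rw [e1, e2] at h
      simpa using h
    intro z
    by_cases hz : 0 < z.im
    · have := h1 ⟨z, hz⟩
      have e1 : ofComplex (z + (N : ℝ)) = (N : ℝ) +ᵥ (⟨z, hz⟩ : ℍ) := by
        rw [ofComplex_apply_of_im_pos (by simpa using hz)]
        ext
        simp [UpperHalfPlane.coe_vadd, add_comm]
      have e2 : ofComplex z = ⟨z, hz⟩ := ofComplex_apply_of_im_pos hz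
      simp only [Function.comp_apply]
      rw [e1, e2]
      exact this
    · simp only [Function.comp_apply]
      rw [ofComplex_apply_of_im_nonpos (by simpa using hz),
        ofComplex_apply_of_im_nonpos (not_lt.1 hz)]
  · have := hg.bdd 1
    rwa [SlashAction.slash_one] at this

theorem MF_le_EF {N : ℕ} [NeZero N] {Γ : Subgroup SL(2, ℤ)} (hΓ : ModularGroup.T ^ N ∈ Γ) :
    MF Γ ≤ EF N := by
  rintro _ ⟨k, g, h, hg, hh, h0, rfl⟩
  exact ⟨_, (isMF_exL (NeZero.ne N) hΓ hg).exM hg.hol hh.hol h0 (isMF_exL (NeZero.ne N) hΓ hh)⟩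

/-- **the expansion of a modular function** -/
def texM {N : ℕ} [NeZero N] {Γ : Subgroup SL(2, ℤ)} (hΓ : ModularGroup.T ^ N ∈ Γ) :
    MF Γ →ₐ[ℂ] LS := (tex N).comp (IntermediateField.inclusion (MF_le_EF hΓ))

theorem texM_spec {N : ℕ} [NeZero N] {Γ : Subgroup SL(2, ℤ)} (hΓ : ModularGroup.T ^ N ∈ Γ)
    (x : MF Γ) : ExM N (texM hΓ x) (x : Mer) :=
  tex_spec (IntermediateField.inclusion (MF_le_EF hΓ) x)

theorem texM_eq {N : ℕ} [NeZero N] {Γ : Subgroup SL(2, ℤ)} (hΓ : ModularGroup.T ^ N ∈ Γ)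
    {x : MF Γ} {X : LS} (h : ExM N X (x : Mer)) : texM hΓ x = X :=
  (texM_spec hΓ x).unique (NeZero.ne N) h

/-! ### pull-backs and `Te` -/

theorem sb_sb (a b : ℕ) (ha : 0 < a) (hb : 0 < b) (x : LS) :
    sb a ha (sb b hb x) = sb (a * b) (Nat.mul_pos ha hb) x := by
  ext n
  by_cases h : (a : ℤ) ∣ n
  · obtain ⟨k, rfl⟩ := h
    rw [coeff_sb_mul]
    by_cases h' : (b : ℤ) ∣ k
    · obtain ⟨c, rfl⟩ := h'
      rw [coeff_sb_mul, ← mul_assoc, show (a : ℤ) * b = ((a * b : ℕ) : ℤ) by push_cast; rfl,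
        coeff_sb_mul]
    · rw [coeff_sb_of_not_dvd _ _ _ _ h', coeff_sb_of_not_dvd]
      rintro ⟨c, hc⟩
      apply h'
      refine ⟨c, ?_⟩
      have ha' : (a : ℤ) ≠ 0 := by exact_mod_cast ha.ne'
      apply mul_left_cancel₀ ha'
      rw [hc]; push_cast; ring
  · rw [coeff_sb_of_not_dvd _ _ _ _ h, coeff_sb_of_not_dvd]
    rintro ⟨c, hc⟩
    exact h ⟨b * c, by rw [hc]; push_cast; ring⟩

/-- `φ` is the pull-back `f ↦ f ∘ u` -/
def Pb (u : ℍ → ℍ) (φ : Mer → Mer) : Prop :=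
  ∀ (f h : ℍ → ℂ) (hf : f ∈ Hol) (hh : h ∈ Hol), h ≠ 0 →
    ∃ (hf' : (fun τ => f (u τ)) ∈ Hol) (hh' : (fun τ => h (u τ)) ∈ Hol),
      (fun τ => h (u τ)) ≠ 0 ∧
      φ (inc f hf / inc h hh) = inc (fun τ => f (u τ)) hf' / inc (fun τ => h (u τ)) hh'

/-- the pull-back by `g ∈ GL(2, ℝ)` of positive determinant -/
theorem pb_of_smul (g : GL (Fin 2) ℝ) (φ : Mer →+* Mer)
    (hφ : ∀ (f : ℍ → ℂ) (hf : f ∈ Hol), ∃ hf' : (fun τ => f (g • τ)) ∈ Hol,
      φ (inc f hf) = inc (fun τ => f (g • τ)) hf') : Pb (fun τ => g • τ) φ := by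
  intro f h hf hh h0
  obtain ⟨hf', e⟩ := hφ f hf
  obtain ⟨hh', e'⟩ := hφ h hh
  refine ⟨hf', hh', ?_, by rw [map_div₀, e, e']⟩
  intro h1
  apply h0
  funext τ
  have := congrFun h1 (g⁻¹ • τ)
  simpa using this

section
variable {N : ℕ} {X Z : LS} {x : Mer}

/-- **f(ℓ τ)** -/
theorem ExM.mulTau {l : ℕ} (hl : 0 < l) (hX : ExM N X x) {u : ℍ → ℍ} {φ : Mer → Mer}
    (hφ : Pb u φ) (hu : ∀ τ : ℍ, ((u τ : ℍ) : ℂ) = l * (τ : ℂ)) : ExM N (sb l hl X) (φ x) := by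
  obtain ⟨g, h, hg, hh, G, H, h0, hG, hH, rfl, rfl⟩ := hX
  obtain ⟨hg', hh', n, e⟩ := hφ g h hg hh h0
  rw [e, map_div₀]
  exact (hG.mulTau hl hu).exM hg' hh' n (hH.mulTau hl hu)

theorem prod_rsF_ne {l : ℕ} (hl : 0 < l) {ζ : ℂ} (hζ : IsPrimitiveRoot ζ l) {H : LS} (hH : H ≠ 0) :
    ∏ j ∈ Finset.range l, rsF (ζ ^ j) H ≠ 0 := by
  rw [Finset.prod_ne_zero_iff]
  intro j _ h
  have hz : ζ ^ j ≠ 0 := pow_ne_zero _ (hζ.ne_zero hl.ne')
  rw [← rs_apply (ζ ^ j) hz] at h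
  exact hH ((map_eq_zero _).1 h)

theorem rsF_div {ζ : ℂ} (hζ : ζ ≠ 0) (G H : LS) : rsF ζ (G / H) = rsF ζ G / rsF ζ H := by
  rw [← rs_apply ζ hζ, ← rs_apply ζ hζ, ← rs_apply ζ hζ, map_div₀]

theorem hol_prod {ι : Type*} (s : Finset ι) {f : ι → ℍ → ℂ} (h : ∀ i ∈ s, f i ∈ Hol) :
    (∏ i ∈ s, f i) ∈ Hol := Subalgebra.prod_mem _ h

theorem inc_prod {ι : Type*} (s : Finset ι) {f : ι → ℍ → ℂ} (h : ∀ i, f i ∈ Hol) :
    inc (∏ i ∈ s, f i) (hol_prod s fun i _ => h i) = ∏ i ∈ s, inc (f i) (h i) := by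
  classical
  induction s using Finset.induction_on with
  | empty =>
    simp only [Finset.prod_empty]
    exact inc_one
  | insert a s ha ih =>
    simp only [Finset.prod_insert ha]
    rw [← ih]
    exact inc_mul _ _

/-- **the norm** -/
theorem ExM.norm {l : ℕ} (hl : Odd l) (hN : N ≠ 0) (hX : ExM N X x) {u : ℕ → ℍ → ℍ}
    {φ : ℕ → Mer → Mer} (hφ : ∀ j, Pb (u j) (φ j))
    (hu : ∀ j, ∀ τ : ℍ, ((u j τ : ℍ) : ℂ) = ((τ : ℂ) + N * j) / l) :
    ∃ Y : LS, ExM N Y (∏ j ∈ Finset.range l, φ j x) ∧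
      ∀ (h : 0 < l) (ζ : ℂ), IsPrimitiveRoot ζ l →
        sb l h Y = ∏ j ∈ Finset.range l, rsF (ζ ^ j) X := by
  obtain ⟨g, h, hg, hh, G, H, h0, hG, hH, rfl, rfl⟩ := hX
  obtain ⟨YG, hYG, eG⟩ := hG.norm hl hN hu
  obtain ⟨YH, hYH, eH⟩ := hH.norm hl hN hu
  have key : ∀ j, ∃ (hg' : (fun τ => g (u j τ)) ∈ Hol) (hh' : (fun τ => h (u j τ)) ∈ Hol),
      (fun τ => h (u j τ)) ≠ 0 ∧ φ j (inc g hg / inc h hh) =
        inc (fun τ => g (u j τ)) hg' / inc (fun τ => h (u j τ)) hh' :=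
    fun j => hφ j g h hg hh h0
  choose hg' hh' n e using key
  have e1 : ∏ j ∈ Finset.range l, φ j (inc g hg / inc h hh) =
      inc (∏ j ∈ Finset.range l, fun τ => g (u j τ)) (hol_prod _ fun j _ => hg' j) /
        inc (∏ j ∈ Finset.range l, fun τ => h (u j τ)) (hol_prod _ fun j _ => hh' j) := by
    rw [inc_prod _ hg', inc_prod _ hh', ← Finset.prod_div_distrib]
    exact Finset.prod_congr rfl fun j _ => e j
  have e2 : ∀ f : ℍ → ℂ, (fun τ => ∏ j ∈ Finset.range l, f (u j τ)) =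
      ∏ j ∈ Finset.range l, fun τ => f (u j τ) := by
    intro f; funext τ; rw [Finset.prod_apply]
  rw [e2] at hYG hYH
  refine ⟨YG / YH, ?_, fun hl' ζ hζ => ?_⟩
  · rw [e1]
    refine hYG.exM _ _ ?_ hYH
    intro h1
    obtain ⟨j, -, hj⟩ := (UpperHalfPlane.prod_eq_zero_iff (fun j _ => hh' j)).1 h1
    exact n j hj
  · rw [map_div₀, eG hl' ζ hζ, eH hl' ζ hζ, ← Finset.prod_div_distrib]
    exact Finset.prod_congr rfl fun j _ =>
      (rsF_div (pow_ne_zero _ (hζ.ne_zero hl'.ne')) _ _).symm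

/-- **`Te`**: `T x = (∏ j < ℓ, x ∘ α_j) · (D x)(ℓ τ)` -/
theorem ExM.te {l : ℕ} (hl : Odd l) (hN : N ≠ 0) (hX : ExM N X x) {u : ℕ → ℍ → ℍ}
    {φ : ℕ → Mer → Mer} (hφ : ∀ j, Pb (u j) (φ j))
    (hu : ∀ j, ∀ τ : ℍ, ((u j τ : ℍ) : ℂ) = ((τ : ℂ) + N * j) / l)
    {Dx Tx : Mer} {v : ℍ → ℍ} {ψ : Mer → Mer} (hψ : Pb v ψ)
    (hv : ∀ τ : ℍ, ((v τ : ℍ) : ℂ) = l * (τ : ℂ)) (hZ : ExM N Z Dx)
    (hT : Tx = (∏ j ∈ Finset.range l, φ j x) * ψ Dx) {Y : LS} (hY : ExM N Y Tx) (h : 0 < l)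
    (ζ : ℂ) (hζ : IsPrimitiveRoot ζ l) :
    sb l h Y = (∏ j ∈ Finset.range l, rs (ζ ^ j) (pow_ne_zero _ (hζ.ne_zero h.ne')) X) *
      sb (l * l) (Nat.mul_pos h h) Z := by
  obtain ⟨Y1, hY1, e1⟩ := hX.norm hl hN hφ hu
  have h2 := hY1.mul (hZ.mulTau h hψ hv)
  rw [← hT] at h2
  rw [hY.unique hN h2, map_mul, e1 h ζ hζ, sb_sb]
  rfl

end

end Vale.Agent.P022.H236.L3
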