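import Vale.Agent.P022.H236.L3.Exm
import Vale.Agent.P022.H218.L3.Deg
import Vale.Agent.P022.H280.L3.Law

/-!
# P022-L3, chapter G, row [INT-R]: integrality of the `t`-expansions of the generators

* `int_div`: quotients of integral series with unit leading coefficient of the denominator;
* `int_Fe`: the functions `Fe u b / E₄` (helper280) have an integral expansion in `t = e(τ / 2^M)`.
-/

set_option autoImplicit false

noncomputable section

namespace Vale.Agent.P022.H236.L3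

open PowerSeries UpperHalfPlane Function.Periodic Filter Topology
open Vale.Agent.P022.H542.L3 Vale.Agent.P022.H218.L3
open scoped Manifold MatrixGroups ModularForm ArithmeticFunction.sigma
open ModularForm EisensteinSeries

/-- an integral power series as a complex one -/
abbrev toCi (A : PowerSeries ℤ) : PowerSeries ℂ := map (Int.castRingHom ℂ) A

theorem div_ls (A B : PowerSeries ℤ) (k l : ℤ) (hB : IsUnit (constantCoeff B)) :
    ∃ D : PowerSeries ℤ, ls k (toCi A) / ls l (toCi B) = ls (k - l) (toCi D) := by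
  obtain ⟨u, hu⟩ := hB
  have h1 : B * invOfUnit B u = 1 := mul_invOfUnit B u hu.symm
  have h2 : ls l (toCi B) * ls (-l) (toCi (invOfUnit B u)) = 1 := by
    rw [ls_mul, add_neg_cancel, ← map_mul, h1, map_one, ls_zero_one]
  refine ⟨A * invOfUnit B u, ?_⟩
  rw [div_eq_mul_inv, inv_eq_of_mul_eq_one_right h2, ls_mul, ← map_mul, ← sub_eq_add_neg]

theorem coeff_ls_int (A : PowerSeries ℤ) (k : ℤ) (n : ℤ) :
    ∃ z : ℤ, (ls k (toCi A)).coeff n = z := by
  rcases lt_or_ge n k with h | h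
  · exact ⟨0, by rw [coeff_ls_of_lt k _ h, Int.cast_zero]⟩
  · obtain ⟨m, rfl⟩ : ∃ m : ℕ, n = k + m := ⟨(n - k).toNat, by omega⟩
    exact ⟨coeff m A, by rw [coeff_ls, coeff_map]; rfl⟩

/-- **integral quotients** -/
theorem int_div {N : ℕ} [NeZero N] {Γ : Subgroup SL(2, ℤ)} (hΓ : ModularGroup.T ^ N ∈ Γ)
    (x : MF Γ) {g h : ℍ → ℂ} (hg : g ∈ Hol) (hh : h ∈ Hol) (h0 : h ≠ 0)
    (hx : (x : Mer) = inc g hg / inc h hh) {k l : ℤ} {A B : PowerSeries ℤ}
    (hB : IsUnit (constantCoeff B)) (hA' : ExL N (ls k (toCi A)) g)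
    (hB' : ExL N (ls l (toCi B)) h) (n : ℤ) : ∃ z : ℤ, (texM hΓ x).coeff n = z := by
  obtain ⟨D, hD⟩ := div_ls A B k l hB
  have h1 : ExM N (ls (k - l) (toCi D)) (x : Mer) := by
    rw [hx, ← hD]
    exact hA'.exM hg hh h0 hB'
  rw [texM_eq hΓ h1]
  exact coeff_ls_int D _ n

/-- the same function in the finer parameter `t`, `q = t ^ N` -/
theorem ExL.period {N m : ℕ} (hN : 0 < N) (hm : m ≠ 0) {x : LS} {f : ℍ → ℂ} (hf : ExL m x f) :
    ExL (m * N) (sb N hN x) f := by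
  obtain ⟨k, F, rfl, hF⟩ := hf
  rw [sb_ls hN.ne' hN]
  refine Exq.exL ?_
  filter_upwards [hF] with τ h
  have hNC : (N : ℂ) ≠ 0 := by exact_mod_cast hN.ne'
  have hmC : (m : ℂ) ≠ 0 := by exact_mod_cast hm
  have e : qParam m τ = qParam (m * N : ℕ) τ ^ N := by
    rw [qParam, qParam, ← Complex.exp_nat_mul]
    congr 1
    push_cast
    field_simp
  rw [e] at h
  rw [ev_expand_iff]
  have e2 : qParam (m * N : ℕ) τ ^ (-((N : ℤ) * k)) = (qParam (m * N : ℕ) τ ^ N) ^ (-k) := by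
    rw [← zpow_natCast, ← zpow_mul]
    congr 1
    ring
  rw [e2]
  exact h

/-- `E₄` with integer coefficients -/
def E4i : PowerSeries ℤ := PowerSeries.mk fun n => if n = 0 then 1 else 240 * (σ 3 n : ℤ)

theorem qExp_E4i : qExpansion 1 E₄ = toCi E4i := by
  ext n
  rw [E_qExpansion_coeff _ ⟨2, rfl⟩, coeff_map, E4i, coeff_mk]
  by_cases h : n = 0
  · subst h
    simp
  · rw [if_neg h, if_neg h, show bernoulli 4 = -1 / 30 by decide +kernel]
    norm_num

theorem E4i_unit : IsUnit (constantCoeff E4i) := by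
  rw [← coeff_zero_eq_constantCoeff_apply, E4i, coeff_mk, if_pos rfl]
  exact isUnit_one

theorem E4_ne : (E₄ : ℍ → ℂ) ≠ 0 := by
  intro h
  have h1 := E_qExpansion_coeff_zero (k := 4) (by norm_num) ⟨2, rfl⟩
  have h2 : qExpansion 1 (E₄ : ℍ → ℂ) = 0 := by rw [h, qExpansion_zero]
  rw [h2, map_zero] at h1
  exact zero_ne_one h1

theorem exL_E4_one : ExL 1 (ls 0 (toCi E4i)) E₄ := by
  have h := isMF_exL (N := 1) one_ne_zero (Subgroup.mem_top _) isMF_E4
  rw [Nat.cast_one, qExp_E4i] at h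
  have e : ls 0 (toCi E4i) = HahnSeries.ofPowerSeries ℤ ℂ (toCi E4i) := by
    rw [ls]; exact one_mul _
  rwa [e]

theorem exL_E4 (N : ℕ) (hN : 0 < N) : ExL N (ls 0 (toCi (expand N hN.ne' E4i))) E₄ := by
  have h := exL_E4_one.period hN one_ne_zero
  rw [sb_ls hN.ne' hN, mul_zero, one_mul] at h
  have e : expand N hN.ne' (toCi E4i) = toCi (expand N hN.ne' E4i) := by
    ext n
    rw [coeff_map, coeff_expand, coeff_expand]
    split_ifs
    · rw [coeff_map]
    · rw [map_zero]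
  rwa [e] at h

theorem exL_Fe {M : ℕ} {u : ZMod (3 * 2 ^ M)} (hu : H280.L3.Idx M u) (b : ZMod (3 * 2 ^ M)) :
    ExL (2 ^ M) (ls 0 (toCi (PowerSeries.mk (H280.L3.cg u b)))) (H280.L3.Fe u b) := by
  have h : ∀ τ : ℍ, HasSum (fun n => (H280.L3.cg u b n : ℂ) * qParam (2 ^ M : ℕ) τ ^ n)
      (H280.L3.Fe u b τ) := by
    intro τ
    have := H280.L3.Fe_exp hu b τ
    have e : Complex.exp (2 * Real.pi * Complex.I * τ / ((2 ^ M : ℕ) : ℂ)) =
        qParam (2 ^ M : ℕ) τ := by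
      rw [qParam]
      push_cast
      rfl
    rwa [e] at this
  have h1 := exL_of_hasSum h
  have e : ls 0 (toCi (PowerSeries.mk (H280.L3.cg u b))) =
      HahnSeries.ofPowerSeries ℤ ℂ (PowerSeries.mk fun n => (H280.L3.cg u b n : ℂ)) := by
    rw [ls]
    refine (one_mul _).trans ?_
    congr 1
  rwa [e]

/-- **the generators `Fe u b / E₄` have an integral expansion in `t = e(τ / 2^M)`** -/
theorem int_Fe {M : ℕ} {Γ : Subgroup SL(2, ℤ)} (hΓ : ModularGroup.T ^ (2 ^ M) ∈ Γ)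
    {u : ZMod (3 * 2 ^ M)} (hu : H280.L3.Idx M u) (b : ZMod (3 * 2 ^ M)) (x : MF Γ)
    (hF : H280.L3.Fe u b ∈ Hol) (hE : (E₄ : ℍ → ℂ) ∈ Hol)
    (hx : (x : Mer) = inc (H280.L3.Fe u b) hF / inc E₄ hE) (n : ℤ) :
    ∃ z : ℤ, (texM hΓ x).coeff n = z := by
  have h2 : 0 < 2 ^ M := by positivity
  refine int_div hΓ x hF hE E4_ne hx ?_ (exL_Fe hu b) (exL_E4 (2 ^ M) h2) n
  rw [← coeff_zero_eq_constantCoeff_apply, coeff_expand, if_pos (dvd_zero _), Nat.zero_div,
    coeff_zero_eq_constantCoeff_apply]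
  exact E4i_unit

end Vale.Agent.P022.H236.L3
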